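import Vale.Agent.P168.VianaBray

/-!
P168 hand-in: the Mézard–Parisi formula for diluted spin glasses in the class of Panchenko and
Talagrand, with the Viana–Bray model as an instance.
-/

namespace Vale.Agent.Results.P168.MezardParisi

open MeasureTheory Filter Vale.Agent.P168
open scoped Topology

/-- For every model of the class the pressure converges to the infimum of the trial functional over
all depths, exponents and messages; the Viana–Bray model is an instance. -/
theorem result :
    (∀ {K : ℕ}, Even K → 2 ≤ K → ∀ {lam : ℝ}, 0 < lam → ∀ {P : Measure (Param K)} {η : Measure ℝ},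
      Admissible P η →
        (trialValues lam (P.map theta) η).Nonempty ∧ BddBelow (trialValues lam (P.map theta) η) ∧
          Tendsto (pressure lam (P.map theta) η) atTop
            (𝓝 (sInf (trialValues lam (P.map theta) η)))) ∧
    ∀ {γ η : Measure ℝ}, IsProbabilityMeasure γ → IsProbabilityMeasure η →
      γ.map (fun g => -g) = γ → Integrable (fun g => g) γ → Integrable (fun h => h) η →
        ∀ (β : ℝ) {lam : ℝ}, 0 < lam →
          Tendsto (pressure lam (γ.map (vbTable β)) η) atTop
            (𝓝 (sInf (trialValues lam (γ.map (vbTable β)) η))) :=
  ⟨fun hK hK2 _ hl _ _ hA => mezardParisi hK hK2 hl hA,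
    fun _ _ hsym hg hη β _ hl => vianaBray hsym hg hη β hl⟩

end Vale.Agent.Results.P168.MezardParisi
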